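import Mathlib
import Vale.Agent.Lib.P052.Main321

/-!
An explicit size: a set of exactly 321 points in dimension 63 whose Borsuk number is at least 65.
-/

theorem Vale.Agent.Results.P052.Card321.result :
    ∃ Y : Finset (EuclideanSpace ℝ (Fin 63)), Y.card = 321 ∧
      0 < Metric.diam (Y : Set (EuclideanSpace ℝ (Fin 63))) ∧
      ∀ k : ℕ, (∃ P : Fin k → Set (EuclideanSpace ℝ (Fin 63)),
        (⋃ i, P i) = (Y : Set (EuclideanSpace ℝ (Fin 63))) ∧
        ∀ i, Metric.diam (P i) < Metric.diam (Y : Set (EuclideanSpace ℝ (Fin 63)))) → 65 ≤ k := by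
  obtain ⟨Y, hcard, hpos, hno⟩ := Vale.Agent.Lib.P052.borsuk63_card
  refine ⟨Y, hcard, hpos, ?_⟩
  rintro k ⟨P, hP, hd⟩
  by_contra hk
  have hk' : k ≤ 64 := by omega
  apply hno
  refine ⟨fun i => if h : i.1 < k then P ⟨i.1, h⟩ else ∅, ?_, ?_⟩
  · rw [← hP]
    ext x
    simp only [Set.mem_iUnion]
    constructor
    · rintro ⟨i, hi⟩
      by_cases h : i.1 < k
      · rw [dif_pos h] at hi
        exact ⟨_, hi⟩
      · rw [dif_neg h] at hi
        exact absurd hi (Set.notMem_empty x)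
    · rintro ⟨i, hi⟩
      refine ⟨⟨i.1, by omega⟩, ?_⟩
      rw [dif_pos i.2]
      exact hi
  · intro i
    by_cases h : i.1 < k
    · simp only [dif_pos h]
      exact hd _
    · simp only [dif_neg h]
      simpa using hpos
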