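import Mathlib
import Vale.Agent.Lib.P052.Main

/-!
Borsuk's conjecture fails in dimension 63.

The set `Y` consists of 321 points of `ℝ^63`: the 320 points of Bondarenko's 416-point
two-distance set (from the G2(4) graph) that lie in a 63-dimensional subspace `L`, and one new point,
a rescaled orthogonal projection to `L` of one of the other 96 points.  Two points of `Y` are at a
distance smaller than the diameter exactly when the corresponding vertices of the G2(4) graph are
adjacent, and that graph has no 6-clique, so 64 pieces of smaller diameter cover at most 320 points.
-/

theorem Vale.Agent.Results.P052.Dim63.result :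
    ∃ Y : Set (EuclideanSpace ℝ (Fin 63)), Y.Finite ∧ 0 < Metric.diam Y ∧
      ¬ ∃ P : Fin 64 → Set (EuclideanSpace ℝ (Fin 63)), (⋃ k, P k) = Y ∧
        ∀ k, Metric.diam (P k) < Metric.diam Y :=
  Vale.Agent.Lib.P052.borsuk63
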