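import Mathlib
import Vale.Agent.Lib.P052.Main

/-!
The statement of Borsuk's conjecture in dimension 63 is false.
-/

theorem Vale.Agent.Results.P052.NotBorsuk63.result :
    ¬ ∀ Y : Set (EuclideanSpace ℝ (Fin 63)), Bornology.IsBounded Y → 0 < Metric.diam Y →
      ∃ P : Fin (63 + 1) → Set (EuclideanSpace ℝ (Fin 63)), Y = ⋃ i, P i ∧
        ∀ i, Metric.diam (P i) < Metric.diam Y := by
  intro h
  obtain ⟨Y, hfin, hpos, hno⟩ := Vale.Agent.Lib.P052.borsuk63
  obtain ⟨P, hP, hd⟩ := h Y hfin.isBounded hpos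
  exact hno ⟨P, hP.symm, hd⟩
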